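import Vale.Agent.P181.SEP.Ident

set_option autoImplicit false
set_option linter.unusedSectionVars false

/-!
# P181: separating columns, the theorem for forms
-/

namespace Vale.Agent.P181.SEP

open Vale.Agent.P181 Vale.Agent.P181.H280 Vale.Agent.P181.H270 Vale.Agent.P181.H73 Finset

section Classes

/-- Classes of at most `d + 1` groups. -/
def clsE (r d : ℕ) : Fin (r + d) → Fin r → Bool := fun p t =>
  decide (t.val ≠ 0 ∧ p.val / (d + 1) = t.val)

lemma clsE_zero (r d : ℕ) (p : Fin (r + d)) (t : Fin r) (h : t.val = 0) :
    clsE r d p t = false := by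
  simp [clsE, h]

lemma clsE_card {r d : ℕ} (hr : 1 ≤ r) (c : Fin r → Bool) :
    (univ.filter (fun p : Fin (r + d) => clsE r d p = c)).card ≤ d + 1 := by
  have h1 : ∀ p ∈ univ.filter (fun p : Fin (r + d) => clsE r d p = c),
      p.val % (d + 1) ∈ Finset.range (d + 1) := by
    intro p _
    exact Finset.mem_range.2 (Nat.mod_lt _ (Nat.succ_pos d))
  have hlt : ∀ p : Fin (r + d), p.val / (d + 1) < r := by
    intro p
    apply Nat.div_lt_of_lt_mul
    have h2 := p.2
    nlinarith only [h2, hr]
  have h3 : ∀ p p' : Fin (r + d), clsE r d p = clsE r d p' →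
      p.val / (d + 1) = p'.val / (d + 1) := by
    intro p p' h
    by_contra hne
    rcases Nat.eq_zero_or_pos (p.val / (d + 1)) with h0 | h0
    · have h4 := congrFun h ⟨p'.val / (d + 1), hlt p'⟩
      simp only [clsE] at h4
      rw [h0] at h4 hne
      have h5 : p'.val / (d + 1) ≠ 0 := fun h => hne h.symm
      simp [h5, Ne.symm h5] at h4
    · have h4 := congrFun h ⟨p.val / (d + 1), hlt p⟩
      simp only [clsE] at h4
      have h5 : p.val / (d + 1) ≠ 0 := by omega
      have h6 : ¬ p'.val / (d + 1) = p.val / (d + 1) := fun h => hne h.symm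
      simp [h5, h6] at h4
  have h4 := Finset.card_le_card_of_injOn (fun p : Fin (r + d) => p.val % (d + 1)) h1 (by
    intro p hp p' hp' h
    rw [Finset.coe_filter] at hp hp'
    have h5 := h3 p p' (hp.2.trans hp'.2.symm)
    apply Fin.ext
    have h6 := Nat.div_add_mod p.val (d + 1)
    have h7 := Nat.div_add_mod p'.val (d + 1)
    rw [← h6, ← h7, h5]
    exact congrArg _ h)
  rw [Finset.card_range] at h4
  exact h4

/-- Full separation by the binary digits. -/
def clsB (a r : ℕ) : Fin a → Fin r → Bool := fun p t =>
  decide (t.val ≠ 0) && Nat.testBit p.val (t.val - 1)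

lemma clsB_zero (a r : ℕ) (p : Fin a) (t : Fin r) (h : t.val = 0) :
    clsB a r p t = false := by
  simp [clsB, h]

lemma clsB_inj {a r : ℕ} (h : a ≤ 2 ^ (r - 1)) : Function.Injective (clsB a r) := by
  intro p p' hpp
  apply Fin.ext
  apply Nat.eq_of_testBit_eq
  intro i
  by_cases hi : i + 1 < r
  · have h1 := congrFun hpp ⟨i + 1, hi⟩
    simpa [clsB] using h1
  · have h2 : ∀ p : Fin a, Nat.testBit p.val i = false := by
      intro p
      apply Nat.testBit_lt_two_pow
      refine lt_of_lt_of_le p.2 (h.trans (Nat.pow_le_pow_right (by norm_num) ?_))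
      omega
    rw [h2, h2]

end Classes

section Main

variable {A : Type} [CommRing A] [Algebra ℂ A]

/-- The common factors of the classes can be chosen freely. -/
theorem sepA (hS : SignStmt) (hP : PeelStmt) {d k q r : ℕ} (s : Fin (r + d) → Fin r → Bool)
    (hr : k + 1 ≤ r) (hs0 : ∀ p (t : Fin r), t.val = 0 → s p t = false)
    (hev : Even r ∨ Function.Injective s)
    (hcard : ∀ c, (univ.filter (fun p => s p = c)).card ≤ d + 1) (L : Submodule ℂ A)
    (x : Fin (r + d) → A) (hx : ∀ i, x i ∈ L)
    (F : MultilinearMap ℂ (fun _ : Fin (r + d) => A) ℂ)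
    (hsym : IsSymm F) (hF : Rel k (q + 1) L F) (hd : r + d ≤ (q + 1) * d + 1)
    (P : Fin (r + d) → A) (hPm : ∀ i, P i ∈ L ^ ((q + 1) * d + k)) :
    ((altC x)^[(q + 1) * r] F) P = 0 := by
  classical
  set φ := (altC x)^[(q + 1) * r] F with hφ
  refine peel L k ((q + 1) * d + k) φ (by omega) (by omega) ?_ P hPm
  intro l hl P' hP'
  rw [Nat.add_sub_cancel] at hP'
  let T : Type := (Fin r → Bool) × (Fin q × Fin d)
  let n : ℕ := Fintype.card T
  let E : T ≃ Fin n := Fintype.equivFin T
  have hcount : ∀ c : Fin r → Bool,
      (univ.filter (fun t : Fin n => (E.symm t).1 = c)).card = q * d := by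
    intro c
    rw [Finset.card_filter, ← E.sum_comp, Fintype.sum_prod_type, Finset.sum_eq_single c]
    · simp
    · intro c' _ hc'
      apply Finset.sum_eq_zero
      intro z _
      rw [Equiv.symm_apply_apply, if_neg hc']
    · intro h
      exact absurd (Finset.mem_univ _) h
  have h1 := hP A L (r + d) d n (Fin r → Bool) s (fun t => (E.symm t).1) hcard
    (mulArg φ (fun _ => ∏ i, l i)) ?_ P' ?_
  · rw [mulArg_apply] at h1
    exact h1
  · intro ξ hξ Q hQ
    apply mzero_of_span (mulArg (mulArg φ (fun _ => ∏ i, l i))
      (fun i => ∏ t, if (E.symm t).1 = s i then ξ t else 1))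
      (fun _ => {z : A | ∃ u : Fin d → A, (∀ s, u s ∈ L) ∧ z = ∏ s, u s}) _ Q
    · intro i
      exact pow_eq_span L d (hQ i)
    intro Q' hQ'
    choose u hu huQ using hQ'
    rw [mulArg_apply, mulArg_apply]
    let y : Fin (r + d) → Fin (q + 1) → Fin (r + d) → A := fun p j t =>
      Fin.addCases (fun _ => (0 : A)) (fun t' => Fin.cases (u p t')
        (fun j' => ξ (E (s p, (j', t')))) j) t
    have hfree0 : ∀ p j, freeR r y p j = ∏ t' : Fin d, y p j (Fin.natAdd r t') := by
      intro p j
      rw [freeR, Fin.prod_univ_add, Finset.prod_eq_one, one_mul]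
      · apply Finset.prod_congr rfl
        intro t' _
        rw [if_neg]
        simp
      · intro t _
        rw [if_pos]
        simp
    have h2 := ident hS (Nat.le_add_right r d) s hr hs0 hev L x hx F hsym hF l hl y (by
      intro p j t
      refine Fin.addCases (fun t => ?_) (fun t' => ?_) t
      · simp only [y, Fin.addCases_left]
        exact L.zero_mem
      · simp only [y, Fin.addCases_right]
        refine Fin.cases ?_ (fun j' => ?_) j
        · exact hu p t'
        · exact hξ _) (by
      intro p p' j hj hpp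
      funext t
      refine Fin.addCases (fun t => ?_) (fun t' => ?_) t
      · simp only [y, Fin.addCases_left]
      · simp only [y, Fin.addCases_right]
        revert hj
        refine Fin.cases ?_ (fun j' => ?_) j
        · intro hj
          exact absurd rfl hj
        · intro _
          simp only [Fin.cases_succ]
          rw [hpp])
    rw [← hφ] at h2
    rw [← h2]
    congr 1
    funext p
    rw [huQ]
    congr 1
    rw [Fin.prod_univ_succ, hfree0, mul_comm]
    congr 1
    · apply Finset.prod_congr rfl
      intro t' _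
      simp only [y, Fin.addCases_right, Fin.cases_zero]
    · rw [← E.prod_comp, Fintype.prod_prod_type, Finset.prod_eq_single (s p)]
      · rw [Fintype.prod_prod_type]
        apply Finset.prod_congr rfl
        intro j' _
        rw [hfree0]
        apply Finset.prod_congr rfl
        intro t' _
        rw [Equiv.symm_apply_apply, if_pos rfl]
        simp only [y, Fin.addCases_right, Fin.cases_succ]
      · intro c _ hc
        apply Finset.prod_eq_one
        intro z _
        rw [Equiv.symm_apply_apply, if_neg hc]
      · intro h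
        exact absurd (Finset.mem_univ _) h
  · intro i
    rw [hcount]
    have h3 : d + q * d = (q + 1) * d := by ring
    rw [h3]
    exact hP' i

end Main

/-- **The theorem for forms.** -/
theorem sepForm (hS : SignStmt) (hP : PeelStmt) : SepStmt := by
  intro a k q r F hsym hF hr hra hev hd P hPm
  obtain ⟨d, rfl⟩ := Nat.exists_eq_add_of_le hra
  rw [Nat.add_sub_cancel_left] at hd
  have hdeg : (q + 1) * (r + d) + k - (q + 1) * r = (q + 1) * d + k := by
    rw [Nat.mul_add]
    omega
  rw [hdeg] at hPm
  rcases hev with hev | hev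
  · exact sepA hS hP (clsE r d) hr (clsE_zero r d) (Or.inl hev)
      (fun c => clsE_card (by omega) c) (linS (r + d)) _ (fun i => X_mem_linS i) F hsym hF hd P hPm
  · refine sepA hS hP (clsB (r + d) r) hr (clsB_zero (r + d) r) (Or.inr (clsB_inj hev)) ?_
      (linS (r + d)) _ (fun i => X_mem_linS i) F hsym hF hd P hPm
    intro c
    refine le_trans (Finset.card_le_one.2 ?_) (Nat.le_add_left 1 d)
    intro p hp p' hp'
    rw [Finset.mem_filter] at hp hp'
    exact clsB_inj hev (hp.2.trans hp'.2.symm)

end Vale.Agent.P181.SEP
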