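import Vale.Agent.P181.H270.Master
import Vale.Agent.P181.H73.End

set_option autoImplicit false

/-!
# P181: separating columns

`b = (q + 1) a + k`, `r ≥ k + 1`: `(q + 1) r` columns, no induction.
-/

namespace Vale.Agent.P181.SEP

open Vale.Agent.P181 Vale.Agent.P181.H280 Vale.Agent.P181.H270 Vale.Agent.P181.H73 Finset
  MvPolynomial

/-- (T2) the sign of the mixed permutations. -/
def SignStmt : Prop := ∀ (a q : ℕ) (X : Fin (q + 1) → Equiv.Perm (Fin a)) (A : Fin a → Bool)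
  (ρ : Fin (q + 1) → Equiv.Perm (Fin a)),
  (∀ j p, A ((X j).symm (X 0 p)) = A p) →
  (∀ u p, ρ u p = X (u - (if A p = true then 1 else 0)) p) →
  ∏ u, ((Equiv.Perm.sign (ρ u) : ℤ) : ℂ) = ∏ j, ((Equiv.Perm.sign (X j) : ℤ) : ℂ)

/-- (T3) removing factors which are common to the slots of one class. -/
def PeelStmt : Prop := ∀ (A : Type) [CommRing A] [Algebra ℂ A] (L : Submodule ℂ A) (a d n : ℕ)
  (S : Type) [DecidableEq S] (s : Fin a → S) (v : Fin n → S),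
  (∀ c : S, (univ.filter (fun i => s i = c)).card ≤ d + 1) →
  ∀ F : MultilinearMap ℂ (fun _ : Fin a => A) ℂ,
    (∀ ξ : Fin n → A, (∀ t, ξ t ∈ L) → ∀ P : Fin a → A, (∀ i, P i ∈ L ^ d) →
      F (fun i => (∏ t, if v t = s i then ξ t else 1) * P i) = 0) →
    ∀ P : Fin a → A, (∀ i, P i ∈ L ^ (d + (univ.filter (fun t => v t = s i)).card)) → F P = 0

/-- (T1) the survivors. Column `(t, u)` has its letter of group `p` at letter `t` of the block
`(p, u - s p t)`. -/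
def SurvStmt : Prop := ∀ (a k q r : ℕ) (hra : r ≤ a) (s : Fin a → Fin r → Bool),
  k + 1 ≤ r → (∀ p (t : Fin r), t.val = 0 → s p t = false) →
  ∀ (e : Equiv.Perm (Fin k ⊕ (Fin a × Fin (q + 1)))) (σ : Fin k → Equiv.Perm (Fin a)),
    (∀ (t : Fin r) (u : Fin (q + 1)), Function.Bijective (fun p : Fin a =>
      slot e σ (.inr (p, u - (if s p t = true then 1 else 0)), Fin.castLE hra t))) →
    ∃ X : Fin (q + 1) → Equiv.Perm (Fin a),
      (∀ p j (t : Fin a), slot e σ (.inr (p, j), t) = X j p) ∧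
      (∀ j p, s ((X j).symm (X 0 p)) = s p) ∧ (∀ i, ∃ i', e (.inl i) = .inl i')

/-- The result for forms. -/
def SepStmt : Prop := ∀ (a k q r : ℕ)
  (F : MultilinearMap ℂ (fun _ : Fin a => MvPolynomial (Fin a) ℂ) ℂ), IsSymm F →
  Rel k (q + 1) (linS a) F → k + 1 ≤ r → r ≤ a → (Even r ∨ a ≤ 2 ^ (r - 1)) →
  a ≤ (q + 1) * (a - r) + 1 →
  ∀ P : Fin a → MvPolynomial (Fin a) ℂ,
    (∀ i, P i ∈ linS a ^ ((q + 1) * a + k - (q + 1) * r)) →
    ((altC (fun i => (X i : MvPolynomial (Fin a) ℂ)))^[(q + 1) * r] F) P = 0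

/-- The final statement. -/
def FinStmt : Prop := ∀ (a b n r : ℕ), 2 ≤ a → a ≤ b → a ≤ n → ∀ lam : Fin n → ℕ,
  b % a + 1 ≤ r → r ≤ a → (Even r ∨ a ≤ 2 ^ (r - 1)) → a ≤ (b / a) * (a - r) + 1 →
  (∀ i : Fin n, (i : ℕ) < a → (b / a) * r ≤ lam i) →
  plethMult a b n lam ≤ plethMult b a n lam

end Vale.Agent.P181.SEP
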