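import Vale.Agent.P181.SEP.Main
import Vale.Agent.P181.SEP.H964.Sign
import Vale.Agent.P181.SEP.H869.Peel
import Vale.Agent.P181.SEP.H605.Fin

set_option autoImplicit false

/-!
# P181: separating columns, final statement
-/

namespace Vale.Agent.P181.SEP

/-- **Theorem SEP.** -/
theorem sep : FinStmt := H605.fin (sepForm H964.sign H869.peel)

end Vale.Agent.P181.SEP
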