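import Vale.Agent.P181.SEP.Surv
import Vale.Agent.P181.H270.Perm

set_option autoImplicit false
set_option linter.unusedSectionVars false

/-!
# P181: separating columns, the identity
-/

namespace Vale.Agent.P181.SEP

open Vale.Agent.P181 Vale.Agent.P181.H280 Vale.Agent.P181.H270 Vale.Agent.P181.H73 Finset

section Ident

variable {A : Type*} [CommRing A] [Algebra ℂ A] {a k q r : ℕ}

/-- The letters outside the columns. -/
def baseB (r : ℕ) (l : Fin k → A) (y : Fin a → Fin (q + 1) → Fin a → A) :
    (Fin k ⊕ (Fin a × Fin (q + 1))) × Fin a → A := fun pos =>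
  Sum.elim (fun i => l i) (fun pj => if pos.2.val < r then 1 else y pj.1 pj.2 pos.2) pos.1

/-- The positions of the column letters. -/
def colP (hra : r ≤ a) (s : Fin a → Fin r → Bool) :
    Fin ((q + 1) * r) → Fin a → (Fin k ⊕ (Fin a × Fin (q + 1))) × Fin a := fun c p =>
  (.inr (p, (finProdFinEquiv.symm c).1 -
    (if s p (finProdFinEquiv.symm c).2 = true then 1 else 0)),
    Fin.castLE hra (finProdFinEquiv.symm c).2)

/-- The free letters of a block. -/
def freeR (r : ℕ) (y : Fin a → Fin (q + 1) → Fin a → A) (p : Fin a) (j : Fin (q + 1)) : A :=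
  ∏ t : Fin a, if t.val < r then 1 else y p j t

/-- The contents of the slots for one surviving placement. -/
lemma cont_surv (l : Fin k → A) (y : Fin a → Fin (q + 1) → Fin a → A)
    (e : Equiv.Perm (Fin k ⊕ (Fin a × Fin (q + 1)))) (σ : Fin k → Equiv.Perm (Fin a))
    (Y : Fin (q + 1) → Equiv.Perm (Fin a))
    (h1 : ∀ p j (t : Fin a), slot e σ (.inr (p, j), t) = Y j p)
    (h3 : ∀ i, ∃ i', e (.inl i) = .inl i') (z : Fin a) :
    cont (slot e σ) (baseB r l y) z = (∏ i, l i) * ∏ j, freeR r y ((Y j).symm z) j := by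
  choose d hd using h3
  have hdinj : Function.Injective d := by
    intro i i' h
    have h4 : (Sum.inl i : Fin k ⊕ (Fin a × Fin (q + 1))) = .inl i' := by
      apply e.injective
      rw [hd, hd, h]
    exact Sum.inl.inj h4
  have hdsurj : Function.Surjective d := Finite.injective_iff_surjective.1 hdinj
  rw [cont, Fintype.prod_prod_type, Fintype.prod_sum_type]
  congr 1
  · apply Finset.prod_congr rfl
    intro i _
    obtain ⟨i', rfl⟩ := hdsurj i
    rw [Finset.prod_eq_single (σ i' z)]
    · rw [← hd, slot_e_inl, Equiv.symm_apply_apply, if_pos rfl, hd]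
      rfl
    · intro t _ ht
      rw [← hd, slot_e_inl, if_neg]
      intro h
      apply ht
      rw [← h, Equiv.apply_symm_apply]
    · intro h
      exact absurd (Finset.mem_univ _) h
  · rw [Fintype.prod_prod_type, Finset.prod_comm]
    apply Finset.prod_congr rfl
    intro j _
    have h4 : ∀ p : Fin a, (∏ t : Fin a, if slot e σ (.inr (p, j), t) = z then
        baseB (k := k) r l y (.inr (p, j), t) else 1) =
        if Y j p = z then freeR r y p j else 1 := by
      intro p
      by_cases h : Y j p = z
      · rw [if_pos h]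
        apply Finset.prod_congr rfl
        intro t _
        rw [h1, if_pos h]
        rfl
      · rw [if_neg h]
        apply Finset.prod_eq_one
        intro t _
        rw [h1, if_neg h]
    rw [Finset.prod_congr rfl (fun p _ => h4 p)]
    exact prod_single_perm (fun p => Y j p) (Y j) (fun p => rfl) (fun p => freeR r y p j) z

/-- The sign of a surviving placement. -/
lemma sign_surv (hS : SignStmt) (s : Fin a → Fin r → Bool)
    (Y : Fin (q + 1) → Equiv.Perm (Fin a))
    (h2 : ∀ j p, s ((Y j).symm (Y 0 p)) = s p)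
    (ρ : Fin ((q + 1) * r) → Equiv.Perm (Fin a))
    (hρ : ∀ c p, ρ c p = Y ((finProdFinEquiv.symm c).1 -
      (if s p (finProdFinEquiv.symm c).2 = true then 1 else 0)) p) :
    ∏ c, ((Equiv.Perm.sign (ρ c) : ℤ) : ℂ) =
      (∏ j, ((Equiv.Perm.sign (Y j) : ℤ) : ℂ)) ^ r := by
  rw [← Equiv.prod_comp finProdFinEquiv, Fintype.prod_prod_type, Finset.prod_comm]
  have h4 : ∀ t : Fin r, ∏ u : Fin (q + 1),
      ((Equiv.Perm.sign (ρ (finProdFinEquiv (u, t))) : ℤ) : ℂ) =
      ∏ j, ((Equiv.Perm.sign (Y j) : ℤ) : ℂ) := by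
    intro t
    apply hS a q Y (fun p => s p t) (fun u => ρ (finProdFinEquiv (u, t)))
    · intro j p
      exact congrFun (h2 j p) t
    · intro u p
      rw [hρ, Equiv.symm_apply_apply]
  rw [Finset.prod_congr rfl (fun t _ => h4 t), Finset.prod_const, Finset.card_univ,
    Fintype.card_fin]

/-- **The identity of the separating columns.** -/
theorem ident (hS : SignStmt) (hra : r ≤ a) (s : Fin a → Fin r → Bool) (hr : k + 1 ≤ r)
    (hs0 : ∀ p (t : Fin r), t.val = 0 → s p t = false)
    (hev : Even r ∨ Function.Injective s) (L : Submodule ℂ A)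
    (x : Fin a → A) (hx : ∀ i, x i ∈ L) (F : MultilinearMap ℂ (fun _ : Fin a => A) ℂ)
    (hsym : IsSymm F) (hF : Rel k (q + 1) L F)
    (l : Fin k → A) (hl : ∀ i, l i ∈ L) (y : Fin a → Fin (q + 1) → Fin a → A)
    (hy : ∀ p j t, y p j t ∈ L) (hcl : ∀ p p' j, j ≠ 0 → s p = s p' → y p j = y p' j) :
    ((altC x)^[(q + 1) * r] F) (fun p => (∏ i, l i) * ∏ j, freeR r y p j) = 0 := by
  classical
  have hPinj : ∀ c i c' i', colP (k := k) (q := q) hra s c i = colP hra s c' i' →
      c = c' ∧ i = i' := by
    intro c i c' i' h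
    have h1 := congrArg Prod.fst h
    have h2 : Fin.castLE hra (finProdFinEquiv.symm c).2 =
        Fin.castLE hra (finProdFinEquiv.symm c').2 := congrArg Prod.snd h
    have h2' := Fin.castLE_injective hra h2
    have h3 := Sum.inr.inj h1
    have h4 : i = i' := congrArg Prod.fst h3
    have h5 : (finProdFinEquiv.symm c).1 -
      (if s i (finProdFinEquiv.symm c).2 = true then 1 else 0) =
      (finProdFinEquiv.symm c').1 -
      (if s i' (finProdFinEquiv.symm c').2 = true then 1 else 0) := congrArg Prod.snd h3
    rw [h4, h2'] at h5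
    refine ⟨finProdFinEquiv.symm.injective (Prod.ext (sub_left_injective h5) h2'), h4⟩
  have hB1 : ∀ c i, baseB (k := k) (q := q) r l y (colP hra s c i) = 1 := by
    intro c i
    simp only [baseB, colP, Sum.elim_inr, Fin.val_castLE, Fin.is_lt, if_true]
  have hB : ∀ pos, (∀ c i, pos ≠ colP (k := k) (q := q) hra s c i) →
      baseB (k := k) (q := q) r l y pos ∈ L := by
    rintro ⟨i | ⟨p, j⟩, t⟩ hpos
    · exact hl i
    · by_cases ht : t.val < r
      · exfalso
        apply hpos (finProdFinEquiv (j + (if s p ⟨t.val, ht⟩ = true then 1 else 0),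
          ⟨t.val, ht⟩)) p
        simp only [colP, Equiv.symm_apply_apply, add_sub_cancel_right]
        rfl
      · show (if t.val < r then 1 else y p j t) ∈ L
        rw [if_neg ht]
        exact hy p j t
  have h := master L F hF x hx (colP hra s) hPinj (baseB r l y) hB1 hB
  set φ := (altC x)^[(q + 1) * r] F with hφ
  have hsgn : IsSgn ((q + 1) * r) φ := isSgn_iter hsym x _
  set V : ℂ := φ (fun p => (∏ i, l i) * ∏ j, freeR r y p j) with hV
  have hterm : ∀ (e : Equiv.Perm (Fin k ⊕ (Fin a × Fin (q + 1))))
      (σ : Fin k → Equiv.Perm (Fin a)),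
      (if h : ∀ c, Function.Bijective (fun i => slot e σ (colP hra s c i)) then
        (∏ c, ((Equiv.Perm.sign (Equiv.ofBijective _ (h c)) : ℤ) : ℂ)) *
          φ (cont (slot e σ) (baseB r l y)) else 0) =
      if (∀ c, Function.Bijective (fun i => slot e σ (colP hra s c i))) then V else 0 := by
    intro e σ
    by_cases hb : ∀ c, Function.Bijective (fun i => slot e σ (colP hra s c i))
    · rw [dif_pos hb, if_pos hb]
      obtain ⟨Y, h1, h2, h3⟩ := surv a k q r hra s hr hs0 e σ (by
        intro t u
        have h4 := hb (finProdFinEquiv (u, t))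
        simp only [colP, Equiv.symm_apply_apply] at h4
        exact h4)
      have hsg := sign_surv hS s Y h2 (fun c => Equiv.ofBijective _ (hb c)) (by
        intro c p
        exact h1 _ _ _)
      have hc : cont (slot e σ) (baseB r l y) =
          fun z => (fun p => (∏ i, l i) * ∏ j, freeR r y p j) ((Y 0).symm z) := by
        funext z
        rw [cont_surv l y e σ Y h1 h3 z]
        show _ = (∏ i, l i) * ∏ j, freeR r y ((Y 0).symm z) j
        congr 1
        apply Finset.prod_congr rfl
        intro j _
        by_cases hj : j = 0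
        · rw [hj]
        · have h4 : s ((Y j).symm z) = s ((Y 0).symm z) := by
            have h5 := h2 j ((Y 0).symm z)
            rw [Equiv.apply_symm_apply] at h5
            exact h5
          simp only [freeR]
          rw [hcl _ _ j hj h4]
      rw [hc, hsgn (Y 0).symm (fun p => (∏ i, l i) * ∏ j, freeR r y p j), ← hV, ← mul_assoc]
      have hone : (∏ c, ((Equiv.Perm.sign (Equiv.ofBijective _ (hb c)) : ℤ) : ℂ)) *
          ((Equiv.Perm.sign (Y 0).symm : ℤ) : ℂ) ^ ((q + 1) * r) = 1 := by
        rw [hsg, Equiv.Perm.sign_symm]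
        rcases hev with hev | hinj
        · obtain ⟨r', hr'⟩ := hev
          have h4 : (∏ j, ((Equiv.Perm.sign (Y j) : ℤ) : ℂ)) *
              (∏ j, ((Equiv.Perm.sign (Y j) : ℤ) : ℂ)) = 1 := by
            rw [← Finset.prod_mul_distrib]
            exact Finset.prod_eq_one (fun j _ => sign_sq _)
          rw [hr', pow_add, ← mul_pow, h4, one_pow, one_mul, Nat.mul_add, pow_add, ← mul_pow,
            sign_sq, one_pow]
        · have h4 : ∀ j, Y j = Y 0 := by
            intro j
            ext p
            have h5 := hinj (h2 j p)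
            rw [Equiv.symm_apply_eq] at h5
            rw [h5]
          rw [Finset.prod_congr rfl (fun j _ => by rw [h4 j]), Finset.prod_const,
            Finset.card_univ, Fintype.card_fin, ← pow_mul, ← mul_pow, sign_sq, one_pow]
      rw [hone, one_mul]
    · rw [dif_neg hb, if_neg hb]
  rw [Finset.sum_congr rfl (fun e _ => Finset.sum_congr rfl (fun σ _ => hterm e σ))] at h
  rw [← Fintype.sum_prod_type', ← Finset.sum_filter, Finset.sum_const, nsmul_eq_mul] at h
  refine (mul_eq_zero.1 h).resolve_left (Nat.cast_ne_zero.2 ?_)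
  apply Finset.card_ne_zero_of_mem (a := (1, 1))
  rw [Finset.mem_filter]
  refine ⟨Finset.mem_univ _, ?_⟩
  intro c
  have h5 : (fun i => slot (1 : Equiv.Perm (Fin k ⊕ (Fin a × Fin (q + 1)))) (1 : Fin k →
      Equiv.Perm (Fin a)) (colP hra s c i)) = id := by
    funext i
    rfl
  rw [h5]
  exact Function.bijective_id

end Ident

end Vale.Agent.P181.SEP
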