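import Vale.Agent.P181.SEP.Defs

set_option autoImplicit false

/-!
# P181: separating columns, the survivors
-/

namespace Vale.Agent.P181.SEP

open Vale.Agent.P181 Vale.Agent.P181.H280 Vale.Agent.P181.H270 Vale.Agent.P181.H73 Finset
  MvPolynomial

open Fin.NatCast in
/-- (T1) the survivors. -/
theorem surv : SurvStmt := by
  intro a k q r hra s hr hs0 e σ hbij
  classical
  -- all kept particles are blocks
  have hA : ∀ z : Fin a × Fin (q + 1), ∃ w : Fin a × Fin (q + 1), e (.inr z) = .inr w := by
    rintro ⟨x, j0⟩
    by_contra hcon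
    push Not at hcon
    have hex : ∀ tu : Fin r × Fin (q + 1), ∃ p : Fin a,
        slot e σ (.inr (p, tu.2 - (if s p tu.1 = true then 1 else 0)), Fin.castLE hra tu.1) = x :=
      fun tu => (hbij tu.1 tu.2).2 x
    choose g hg using hex
    let blk : Fin r × Fin (q + 1) → Fin a × Fin (q + 1) := fun tu =>
      (g tu, tu.2 - (if s (g tu) tu.1 = true then 1 else 0))
    have hg' : ∀ tu, slot e σ (.inr (blk tu), Fin.castLE hra tu.1) = x := hg
    have hblk : ∀ tu tu' : Fin r × Fin (q + 1), blk tu = blk tu' → tu.1 = tu'.1 → tu = tu' := by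
      intro tu tu' h1 h2
      have h3 : g tu = g tu' := congrArg Prod.fst h1
      have h4 : tu.2 - (if s (g tu) tu.1 = true then 1 else 0) =
          tu'.2 - (if s (g tu') tu'.1 = true then 1 else 0) := congrArg Prod.snd h1
      rw [h3, h2] at h4
      exact Prod.ext h2 (sub_left_injective h4)
    let f : Fin r × Fin (q + 1) → (Fin (q + 1) × Fin r) ⊕ Fin k := fun tu =>
      Sum.elim (fun i => .inr i) (fun xj => .inl (xj.2, tu.1)) (e.symm (.inr (blk tu)))
    have hfl : ∀ tu (xj : Fin a × Fin (q + 1)), e.symm (.inr (blk tu)) = .inr xj →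
        f tu = .inl (xj.2, tu.1) ∧ xj.1 = x := by
      intro tu xj h
      refine ⟨by simp only [f]; rw [h, Sum.elim_inr], ?_⟩
      have h1 := hg' tu
      simp only [slot] at h1
      rw [h, Sum.elim_inr] at h1
      exact h1
    have hfr : ∀ tu (i : Fin k), e.symm (.inr (blk tu)) = .inl i →
        f tu = .inr i ∧ (σ i).symm (Fin.castLE hra tu.1) = x := by
      intro tu i h
      refine ⟨by simp only [f]; rw [h, Sum.elim_inl], ?_⟩
      have h1 := hg' tu
      simp only [slot] at h1
      rw [h, Sum.elim_inl] at h1
      exact h1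
    have hcase : ∀ tu, (∃ xj : Fin a × Fin (q + 1), e.symm (.inr (blk tu)) = .inr xj) ∨
        (∃ i : Fin k, e.symm (.inr (blk tu)) = .inl i) := by
      intro tu
      rcases h : e.symm (.inr (blk tu)) with i | xj
      · exact Or.inr ⟨i, rfl⟩
      · exact Or.inl ⟨xj, rfl⟩
    have hinj : Function.Injective f := by
      intro tu tu' h
      rcases hcase tu with ⟨xj, h1⟩ | ⟨i, h1⟩ <;> rcases hcase tu' with ⟨xj', h1'⟩ | ⟨i', h1'⟩
      · rw [(hfl tu xj h1).1, (hfl tu' xj' h1').1] at h
        have h2 := Sum.inl.inj h
        have h3 : xj = xj' := Prod.ext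
          ((hfl tu xj h1).2.trans (hfl tu' xj' h1').2.symm) (congrArg Prod.fst h2)
        have h4 : (Sum.inr (blk tu) : Fin k ⊕ (Fin a × Fin (q + 1))) = .inr (blk tu') := by
          apply e.symm.injective
          rw [h1, h1', h3]
        exact hblk tu tu' (Sum.inr.inj h4) (congrArg Prod.snd h2)
      · rw [(hfl tu xj h1).1, (hfr tu' i' h1').1] at h
        cases h
      · rw [(hfr tu i h1).1, (hfl tu' xj' h1').1] at h
        cases h
      · rw [(hfr tu i h1).1, (hfr tu' i' h1').1] at h
        have h3 : i = i' := Sum.inr.inj h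
        have h4 : (Sum.inr (blk tu) : Fin k ⊕ (Fin a × Fin (q + 1))) = .inr (blk tu') := by
          apply e.symm.injective
          rw [h1, h1', h3]
        have h5 : Fin.castLE hra tu.1 = Fin.castLE hra tu'.1 := by
          apply (σ i).symm.injective
          rw [(hfr tu i h1).2]
          subst h3
          rw [(hfr tu' i h1').2]
        exact hblk tu tu' (Sum.inr.inj h4) (Fin.castLE_injective hra h5)
    have hmaps : ∀ tu ∈ (univ : Finset (Fin r × Fin (q + 1))),
        f tu ∈ ((univ.erase j0 ×ˢ (univ : Finset (Fin r))).disjSum (univ : Finset (Fin k))) := by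
      intro tu _
      rcases hcase tu with ⟨xj, h1⟩ | ⟨i, h1⟩
      · rw [(hfl tu xj h1).1, Finset.inl_mem_disjSum, Finset.mem_product]
        refine ⟨Finset.mem_erase.2 ⟨?_, Finset.mem_univ _⟩, Finset.mem_univ _⟩
        intro h2
        have h3 : xj = (x, j0) := Prod.ext (hfl tu xj h1).2 h2
        apply hcon (blk tu)
        rw [← h3, ← h1, Equiv.apply_symm_apply]
      · rw [(hfr tu i h1).1, Finset.inr_mem_disjSum]
        exact Finset.mem_univ _
    have hcard := Finset.card_le_card_of_injOn f hmaps (fun _ _ _ _ h => hinj h)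
    rw [Finset.card_disjSum, Finset.card_product, Finset.card_erase_of_mem (Finset.mem_univ _),
      Finset.card_univ, Finset.card_univ, Finset.card_univ, Finset.card_univ, Fintype.card_prod,
      Fintype.card_fin, Fintype.card_fin, Fintype.card_fin, Nat.add_sub_cancel, Nat.mul_add,
      Nat.mul_one, Nat.mul_comm q r] at hcard
    omega
  choose h hh using hA
  have hhinj : Function.Injective h := by
    intro z z' hz
    have h1 : (Sum.inr z : Fin k ⊕ (Fin a × Fin (q + 1))) = .inr z' := by
      apply e.injective
      rw [hh, hh, hz]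
    exact Sum.inr.inj h1
  let H : Fin a × Fin (q + 1) ≃ Fin a × Fin (q + 1) :=
    Equiv.ofBijective h (Finite.injective_iff_bijective.1 hhinj)
  have hH : ∀ w, e.symm (.inr w) = .inr (H.symm w) := by
    intro w
    rw [Equiv.symm_apply_eq, hh]
    congr 1
    exact (H.apply_symm_apply w).symm
  have hslot : ∀ w (t : Fin a), slot e σ (.inr w, t) = (H.symm w).1 := by
    intro w t
    simp only [slot]
    rw [hH, Sum.elim_inr]
  let t0 : Fin r := ⟨0, by omega⟩
  have ht0 : ∀ p, s p t0 = false := fun p => hs0 p t0 rfl
  have hX : ∀ j : Fin (q + 1), Function.Bijective (fun p : Fin a => (H.symm (p, j)).1) := by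
    intro j
    have h1 := hbij t0 j
    simp only [hslot, ht0] at h1
    simpa using h1
  let Y : Fin (q + 1) → Equiv.Perm (Fin a) := fun j => Equiv.ofBijective _ (hX j)
  have hY : ∀ p j, Y j p = (H.symm (p, j)).1 := fun p j => rfl
  have hslotY : ∀ p j (t : Fin a), slot e σ (.inr (p, j), t) = Y j p := by
    intro p j t
    rw [hslot, hY]
  refine ⟨Y, hslotY, ?_, ?_⟩
  · -- one class in each slot
    intro j p
    funext t
    set x := Y 0 p with hx
    have hstep : ∀ j : Fin (q + 1), s ((Y j).symm x) t = true →
        s ((Y (j + 1)).symm x) t = true := by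
      intro j hj
      by_contra hcon
      rw [Bool.not_eq_true] at hcon
      have h1 := (hbij t (j + 1)).1
      simp only [hslotY] at h1
      have h2 : (Y j).symm x = (Y (j + 1)).symm x := by
        apply h1
        simp only [hj, hcon]
        simp
      rw [h2, hcon] at hj
      cases hj
    have hall : ∀ (j : Fin (q + 1)) (n : ℕ), s ((Y j).symm x) t = true →
        s ((Y (j + (n : Fin (q + 1)))).symm x) t = true := by
      intro j n hj
      induction n with
      | zero => simpa using hj
      | succ n ih =>
        rw [Nat.cast_succ, ← add_assoc]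
        exact hstep _ ih
    have hall' : ∀ j j' : Fin (q + 1), s ((Y j).symm x) t = true →
        s ((Y j').symm x) t = true := by
      intro j j' hj
      have h1 := hall j (j' - j).val hj
      rw [Fin.cast_val_eq_self, add_sub_cancel] at h1
      exact h1
    have h0 : s ((Y 0).symm x) t = s p t := by
      rw [hx, Equiv.symm_apply_apply]
    rw [← h0]
    rcases hb : s ((Y j).symm x) t with _ | _
    · rcases hb' : s ((Y 0).symm x) t with _ | _
      · rfl
      · have h1 := hall' 0 j hb'
        rw [hb] at h1
        cases h1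
    · exact (hall' j 0 hb).symm
  · intro i
    rcases h1 : e (.inl i) with i' | w
    · exact ⟨i', rfl⟩
    · exfalso
      have h2 : e.symm (.inr w) = .inl i := by
        rw [← h1, Equiv.symm_apply_apply]
      rw [hH] at h2
      cases h2

end Vale.Agent.P181.SEP
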